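import Mathlib

/-!
# Locally anti-blocking bodies: common definitions

Sets live in `Fin n → ℝ`.  A sign pattern is `s : Fin n → Bool`, with `sg true = 1` and
`sg false = -1`.

* `orth s T`: the part of `T` in the orthant with sign pattern `s`, reflected into the
  nonnegative orthant;
* `adual L`: the anti-blocking dual of a subset of the nonnegative orthant;
* `polar K`: the polar set;
* `Good L`: the class of subsets of the nonnegative orthant used in the induction on the
  dimension (closed, convex, closed under the coordinate projections, bounded, containing a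
  cube at the origin).
-/

namespace Vale.Agent.H64.LAB

/-- The sign `+1` or `-1` attached to a Boolean. -/
noncomputable def sg (b : Bool) : ℝ := if b then 1 else -1

/-- The part of `T` in the orthant with sign pattern `s`, reflected to the nonnegative orthant. -/
def orth {n : ℕ} (s : Fin n → Bool) (T : Set (Fin n → ℝ)) : Set (Fin n → ℝ) :=
  {x | (∀ i, 0 ≤ x i) ∧ (fun i => sg (s i) * x i) ∈ T}

/-- The anti-blocking dual of a subset of the nonnegative orthant. -/
def adual {n : ℕ} (L : Set (Fin n → ℝ)) : Set (Fin n → ℝ) :=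
  {y | (∀ i, 0 ≤ y i) ∧ ∀ x ∈ L, ∑ i, x i * y i ≤ 1}

/-- The polar set. -/
def polar {n : ℕ} (K : Set (Fin n → ℝ)) : Set (Fin n → ℝ) :=
  {y | ∀ x ∈ K, ∑ i, x i * y i ≤ 1}

/-- Closed convex subsets of the nonnegative orthant that are closed under the coordinate
projections, bounded, and contain a cube `[0, ε]^n`. -/
def Good {n : ℕ} (L : Set (Fin n → ℝ)) : Prop :=
  IsClosed L ∧ Convex ℝ L ∧ (∀ x ∈ L, ∀ i, 0 ≤ x i) ∧
    (∀ x ∈ L, ∀ i, Function.update x i 0 ∈ L) ∧ (∃ R : ℝ, ∀ x ∈ L, ∀ i, x i ≤ R) ∧
    (∃ ε : ℝ, 0 < ε ∧ ∀ x : Fin n → ℝ, (∀ i, 0 ≤ x i ∧ x i ≤ ε) → x ∈ L)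

end Vale.Agent.H64.LAB
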