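import Vale.Agent.H64.LAB.Orthant
import Vale.Agent.H67.LAB.SaintRaymond
import Vale.Agent.H91.LAB.Cone
import Vale.Agent.H50.Mahler.Alg

/-!
# The volume product of a locally anti-blocking body

A compact convex set `K ⊆ ℝ^n` with the origin in its interior that is mapped into itself by
every coordinate projection satisfies `vol K * vol K° ≥ 4^n / n!`.
-/

open MeasureTheory Set
open scoped ENNReal

namespace Vale.Agent.H64.LAB

theorem lab_mahler (n : ℕ) (K : Set (Fin n → ℝ)) (hK : IsCompact K) (hc : Convex ℝ K)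
    (h0 : (0 : Fin n → ℝ) ∈ interior K)
    (hP : ∀ i, ∀ x ∈ K, Function.update x i 0 ∈ K) :
    (4 : ℝ) ^ n / (n.factorial : ℝ) ≤
      (volume K).toReal * (volume {y : Fin n → ℝ | ∀ x ∈ K, ∑ i, x i * y i ≤ 1}).toReal := by
  show (4 : ℝ) ^ n / (n.factorial : ℝ) ≤ (volume K).toReal * (volume (polar K)).toReal
  have hC : Vale.Agent.H67.LAB.ConeIneq := fun n S hS hc hnn x hx =>
    Vale.Agent.H91.LAB.cone_ineq S hS hc hnn x hx
  have hfinK : volume K < ⊤ := hK.measure_lt_top
  have hfinP : volume (polar K) < ⊤ := volume_polar_lt_top K h0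
  have hsumA : ∑ s : Fin n → Bool, volume (orth s K) ≤ volume K :=
    orthant_sum_le K hK.measurableSet
  have hsumB : ∑ s : Fin n → Bool, volume (orth s (polar K)) ≤ volume (polar K) :=
    orthant_sum_le (polar K) (measurableSet_polar K)
  have hA : ∀ s : Fin n → Bool, volume (orth s K) ≠ ⊤ := fun s =>
    ne_top_of_le_ne_top hfinK.ne
      ((Finset.single_le_sum (f := fun s : Fin n → Bool => volume (orth s K))
        (fun _ _ => bot_le) (Finset.mem_univ s)).trans hsumA)
  have hB : ∀ s : Fin n → Bool, volume (orth s (polar K)) ≠ ⊤ := fun s =>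
    ne_top_of_le_ne_top hfinP.ne
      ((Finset.single_le_sum (f := fun s : Fin n → Bool => volume (orth s (polar K)))
        (fun _ _ => bot_le) (Finset.mem_univ s)).trans hsumB)
  have hSR : ∀ s : Fin n → Bool, 1 / (n.factorial : ℝ) ≤
      (volume (orth s K)).toReal * (volume (orth s (polar K))).toReal := by
    intro s
    have h1 := Vale.Agent.H67.LAB.saint_raymond hC n (orth s K) (good_orth K hK hc h0 hP s)
    rw [← orth_polar K hP s] at h1
    have h2 := ENNReal.toReal_mono
      (ENNReal.mul_ne_top (ENNReal.mul_ne_top (ENNReal.natCast_ne_top _) (hA s)) (hB s)) h1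
    rw [ENNReal.toReal_mul, ENNReal.toReal_mul, ENNReal.toReal_natCast, ENNReal.toReal_one] at h2
    rw [div_le_iff₀ (by positivity)]
    linarith
  have hcs := Vale.Agent.H50.Mahler.card_sq_mul_le
    (fun s : Fin n → Bool => (volume (orth s K)).toReal)
    (fun s : Fin n → Bool => (volume (orth s (polar K))).toReal) (1 / (n.factorial : ℝ))
    (fun _ => ENNReal.toReal_nonneg) (fun _ => ENNReal.toReal_nonneg) (by positivity) hSR
  have hcard : (Fintype.card (Fin n → Bool) : ℝ) = 2 ^ n := by
    simp
  have hsA : ∑ s : Fin n → Bool, (volume (orth s K)).toReal ≤ (volume K).toReal := by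
    rw [← ENNReal.toReal_sum (fun s _ => hA s)]
    exact ENNReal.toReal_mono hfinK.ne hsumA
  have hsB : ∑ s : Fin n → Bool, (volume (orth s (polar K))).toReal ≤
      (volume (polar K)).toReal := by
    rw [← ENNReal.toReal_sum (fun s _ => hB s)]
    exact ENNReal.toReal_mono hfinP.ne hsumB
  have h4 : (4 : ℝ) ^ n / (n.factorial : ℝ) =
      (Fintype.card (Fin n → Bool) : ℝ) ^ 2 * (1 / (n.factorial : ℝ)) := by
    rw [hcard, ← pow_mul, mul_comm n 2, pow_mul]
    norm_num
    ring
  rw [h4]
  refine hcs.trans ?_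
  exact mul_le_mul hsA hsB (Finset.sum_nonneg fun _ _ => ENNReal.toReal_nonneg)
    ENNReal.toReal_nonneg

end Vale.Agent.H64.LAB
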