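import Vale.Agent.H64.LAB.Defs

/-!
# Orthant decomposition for locally anti-blocking bodies

`orth s T` is the part of `T` in the orthant with sign pattern `s`, reflected into the
nonnegative orthant.  We prove

* `orthant_sum_le`: the volumes of the `2^n` orthant parts add up to at most the volume;
* `orth_polar`: for a set closed under the coordinate projections, the orthant parts of the
  polar are the anti-blocking duals of the orthant parts;
* `good_orth`: the orthant parts of a compact convex set with the origin in its interior that is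
  closed under the coordinate projections are in the class `Good`;
* `good_down_closed`: sets of the class `Good` are down-closed;
* `isClosed_polar`, `isBounded_polar`, `volume_polar_lt_top`.
-/

open MeasureTheory Set
open scoped ENNReal

namespace Vale.Agent.H64.LAB

theorem sg_mul_self (b : Bool) : sg b * sg b = 1 := by
  cases b <;> simp [sg]

theorem sg_ne_zero (b : Bool) : sg b ≠ 0 := by
  cases b <;> simp [sg]

theorem abs_sg (b : Bool) : |sg b| = 1 := by
  cases b <;> simp [sg]

/-- Coordinatewise sign change. -/
noncomputable def refl {n : ℕ} (s : Fin n → Bool) (x : Fin n → ℝ) : Fin n → ℝ :=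
  fun i => sg (s i) * x i

theorem refl_refl {n : ℕ} (s : Fin n → Bool) (x : Fin n → ℝ) : refl s (refl s x) = x := by
  funext i
  simp only [refl]
  rw [← mul_assoc, sg_mul_self, one_mul]

theorem measurable_refl {n : ℕ} (s : Fin n → Bool) : Measurable (refl s) := by
  unfold refl
  fun_prop

theorem continuous_refl {n : ℕ} (s : Fin n → Bool) : Continuous (refl s) := by
  unfold refl
  fun_prop

theorem measurePreserving_sg_mul (b : Bool) :
    MeasurePreserving (fun t : ℝ => sg b * t) volume volume := by
  refine ⟨measurable_const_mul _, ?_⟩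
  rw [Real.map_volume_mul_left (sg_ne_zero b)]
  rw [abs_inv, abs_sg]
  simp

theorem measurePreserving_refl {n : ℕ} (s : Fin n → Bool) :
    MeasurePreserving (refl s) volume volume := by
  have := volume_preserving_pi (ι := Fin n) (α' := fun _ => ℝ) (β' := fun _ => ℝ)
    (f := fun i t => sg (s i) * t) (fun i => measurePreserving_sg_mul (s i))
  exact this

/-- The open orthant with sign pattern `s`. -/
def openOrth {n : ℕ} (s : Fin n → Bool) : Set (Fin n → ℝ) :=
  {y | ∀ i, 0 < sg (s i) * y i}

theorem measurableSet_openOrth {n : ℕ} (s : Fin n → Bool) : MeasurableSet (openOrth s) := by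
  have : openOrth s = ⋂ i, {y : Fin n → ℝ | 0 < sg (s i) * y i} := by
    ext y; simp [openOrth]
  rw [this]
  refine MeasurableSet.iInter fun i => ?_
  exact measurableSet_lt measurable_const ((measurable_pi_apply i).const_mul _)

theorem disjoint_openOrth {n : ℕ} {s t : Fin n → Bool} (h : s ≠ t) :
    Disjoint (openOrth s) (openOrth t) := by
  rw [Set.disjoint_left]
  intro y hs ht
  obtain ⟨i, hi⟩ := Function.ne_iff.mp h
  have h1 := hs i
  have h2 := ht i
  revert h1 h2 hi
  cases s i <;> cases t i <;> simp [sg] <;> intros <;> linarith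

theorem volume_coord_zero {n : ℕ} (i : Fin n) :
    volume {x : Fin n → ℝ | x i = 0} = 0 := by
  rw [volume_pi]
  exact Measure.pi_hyperplane (fun _ => (volume : Measure ℝ)) i 0

/-- Step (1): the orthant parts have total volume at most the volume. -/
theorem orthant_sum_le {n : ℕ} (T : Set (Fin n → ℝ)) (hT : MeasurableSet T) :
    ∑ s : Fin n → Bool, volume (orth s T) ≤ volume T := by
  have key : ∀ s : Fin n → Bool, volume (orth s T) ≤ volume (T ∩ openOrth s) := by
    intro s
    have hsub : orth s T ⊆ (refl s ⁻¹' (T ∩ openOrth s)) ∪ ⋃ i, {x : Fin n → ℝ | x i = 0} := by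
      intro x hx
      by_cases h0 : ∃ i, x i = 0
      · right
        obtain ⟨i, hi⟩ := h0
        exact mem_iUnion.mpr ⟨i, hi⟩
      · left
        have h0' : ∀ i, x i ≠ 0 := fun i hi => h0 ⟨i, hi⟩
        refine ⟨hx.2, fun i => ?_⟩
        simp only [refl]
        rw [← mul_assoc, sg_mul_self, one_mul]
        exact lt_of_le_of_ne (hx.1 i) (Ne.symm (h0' i))
    calc volume (orth s T)
        ≤ volume ((refl s ⁻¹' (T ∩ openOrth s)) ∪ ⋃ i, {x : Fin n → ℝ | x i = 0}) :=
          measure_mono hsub
      _ ≤ volume (refl s ⁻¹' (T ∩ openOrth s)) + volume (⋃ i, {x : Fin n → ℝ | x i = 0}) :=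
          measure_union_le _ _
      _ = volume (refl s ⁻¹' (T ∩ openOrth s)) + 0 := by
          congr 1
          exact (measure_iUnion_null_iff).mpr fun i => volume_coord_zero i
      _ = volume (T ∩ openOrth s) := by
          rw [add_zero]
          exact (measurePreserving_refl s).measure_preimage
            (hT.inter (measurableSet_openOrth s)).nullMeasurableSet
  calc ∑ s : Fin n → Bool, volume (orth s T)
      ≤ ∑ s : Fin n → Bool, volume (T ∩ openOrth s) := Finset.sum_le_sum fun s _ => key s
    _ = volume (⋃ s ∈ (Finset.univ : Finset (Fin n → Bool)), T ∩ openOrth s) := by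
        rw [measure_biUnion_finset]
        · intro s _ t _ hst
          exact (disjoint_openOrth hst).mono inter_subset_right inter_subset_right
        · intro s _
          exact hT.inter (measurableSet_openOrth s)
    _ ≤ volume T := by
        refine measure_mono ?_
        intro x hx
        simp only [mem_iUnion] at hx
        obtain ⟨s, _, hs⟩ := hx
        exact hs.1

/-- A set closed under the coordinate projections is closed under zeroing any set of
coordinates. -/
theorem proj_finset_mem {n : ℕ} {K : Set (Fin n → ℝ)}
    (hP : ∀ i, ∀ x ∈ K, Function.update x i 0 ∈ K) (J : Finset (Fin n)) :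
    ∀ x ∈ K, (fun i => if i ∈ J then 0 else x i) ∈ K := by
  classical
  induction J using Finset.induction_on with
  | empty =>
    intro x hx
    simpa using hx
  | insert a J ha ih =>
    intro x hx
    have h1 := hP a _ (ih x hx)
    convert h1 using 1
    funext i
    by_cases hia : i = a
    · subst hia
      simp
    · simp [Finset.mem_insert, hia]

/-- Step (2): the orthant parts of the polar are the anti-blocking duals of the orthant parts. -/
theorem orth_polar {n : ℕ} (K : Set (Fin n → ℝ))
    (hP : ∀ i, ∀ x ∈ K, Function.update x i 0 ∈ K) (s : Fin n → Bool) :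
    orth s (polar K) = adual (orth s K) := by
  ext y
  constructor
  · rintro ⟨hy0, hy⟩
    refine ⟨hy0, fun x hx => ?_⟩
    have h1 : ∑ i, (sg (s i) * x i) * (sg (s i) * y i) ≤ 1 := hy _ hx.2
    calc ∑ i, x i * y i = ∑ i, (sg (s i) * x i) * (sg (s i) * y i) := by
          refine Finset.sum_congr rfl fun i _ => ?_
          have h2 := sg_mul_self (s i)
          calc x i * y i = (sg (s i) * sg (s i)) * (x i * y i) := by rw [h2, one_mul]
            _ = (sg (s i) * x i) * (sg (s i) * y i) := by ring
      _ ≤ 1 := h1
  · rintro ⟨hy0, hy⟩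
    refine ⟨hy0, fun x hx => ?_⟩
    classical
    have hxJ := proj_finset_mem hP (Finset.univ.filter fun i => sg (s i) * x i < 0) x hx
    have hx' : (fun i => max (sg (s i) * x i) 0) ∈ orth s K := by
      refine ⟨fun i => le_max_right _ _, ?_⟩
      convert hxJ using 1
      funext i
      simp only [Finset.mem_filter, Finset.mem_univ, true_and]
      split_ifs with h
      · rw [max_eq_right h.le, mul_zero]
      · rw [max_eq_left (not_lt.mp h), ← mul_assoc, sg_mul_self, one_mul]
    have h1 : ∑ i, max (sg (s i) * x i) 0 * y i ≤ 1 := hy _ hx'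
    show ∑ i, x i * (sg (s i) * y i) ≤ 1
    calc ∑ i, x i * (sg (s i) * y i) = ∑ i, (sg (s i) * x i) * y i := by
          refine Finset.sum_congr rfl fun i _ => by ring
      _ ≤ ∑ i, max (sg (s i) * x i) 0 * y i := by
          refine Finset.sum_le_sum fun i _ => ?_
          exact mul_le_mul_of_nonneg_right (le_max_left _ _) (hy0 i)
      _ ≤ 1 := h1

/-- The orthant parts of a locally anti-blocking body are in the class `Good`. -/
theorem good_orth {n : ℕ} (K : Set (Fin n → ℝ)) (hK : IsCompact K) (hc : Convex ℝ K)
    (h0 : (0 : Fin n → ℝ) ∈ interior K)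
    (hP : ∀ i, ∀ x ∈ K, Function.update x i 0 ∈ K) (s : Fin n → Bool) : Good (orth s K) := by
  refine ⟨?_, ?_, ?_, ?_, ?_, ?_⟩
  · have h1 : IsClosed {x : Fin n → ℝ | ∀ i, 0 ≤ x i} := by
      have : {x : Fin n → ℝ | ∀ i, 0 ≤ x i} = ⋂ i, {x : Fin n → ℝ | 0 ≤ x i} := by
        ext x; simp
      rw [this]
      exact isClosed_iInter fun i => isClosed_le continuous_const (continuous_apply i)
    have h2 : IsClosed (refl s ⁻¹' K) := hK.isClosed.preimage (continuous_refl s)
    exact h1.inter h2
  · intro x hx y hy a b ha hb hab
    refine ⟨fun i => ?_, ?_⟩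
    · simp only [Pi.add_apply, Pi.smul_apply, smul_eq_mul]
      have h1 := hx.1 i
      have h2 := hy.1 i
      positivity
    · have h1 := hc hx.2 hy.2 ha hb hab
      convert h1 using 1
      funext i
      simp only [Pi.add_apply, Pi.smul_apply, smul_eq_mul]
      ring
  · exact fun x hx => hx.1
  · intro x hx i
    refine ⟨fun j => ?_, ?_⟩
    · by_cases hji : j = i
      · subst hji
        simp
      · rw [Function.update_of_ne hji]
        exact hx.1 j
    · have h1 := hP i _ hx.2
      convert h1 using 1
      funext j
      by_cases hji : j = i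
      · subst hji
        simp
      · simp [Function.update_of_ne hji]
  · obtain ⟨R, hR⟩ := hK.isBounded.exists_norm_le
    refine ⟨R, fun x hx i => ?_⟩
    have h1 := hR _ hx.2
    have h2 := norm_le_pi_norm (fun i => sg (s i) * x i) i
    rw [Real.norm_eq_abs, abs_mul, abs_sg, one_mul] at h2
    exact (le_abs_self _).trans (h2.trans h1)
  · rw [mem_interior_iff_mem_nhds, Metric.mem_nhds_iff] at h0
    obtain ⟨δ, hδ, hball⟩ := h0
    refine ⟨δ / 2, by positivity, fun x hx => ⟨fun i => (hx i).1, ?_⟩⟩
    apply hball
    rw [Metric.mem_ball, dist_zero_right]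
    have h1 : ‖(fun i => sg (s i) * x i)‖ ≤ δ / 2 := by
      rw [pi_norm_le_iff_of_nonneg (by positivity)]
      intro i
      rw [Real.norm_eq_abs, abs_mul, abs_sg, one_mul, abs_of_nonneg (hx i).1]
      exact (hx i).2
    linarith

/-- Sets of the class `Good` are down-closed. -/
theorem good_down_closed {n : ℕ} {L : Set (Fin n → ℝ)} (hL : Good L) {x y : Fin n → ℝ}
    (hx : x ∈ L) (h0 : ∀ i, 0 ≤ y i) (hy : ∀ i, y i ≤ x i) : y ∈ L := by
  classical
  obtain ⟨-, hconv, -, hP, -, -⟩ := hL
  have key : ∀ J : Finset (Fin n), (fun i => if i ∈ J then y i else x i) ∈ L := by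
    intro J
    induction J using Finset.induction_on with
    | empty => simpa using hx
    | insert a J ha ih =>
      have hPz := hP _ ih a
      rcases (le_trans (h0 a) (hy a)).eq_or_lt with hxa | hxa
      · have hya : y a = 0 := le_antisymm (hxa ▸ hy a) (h0 a)
        convert hPz using 1
        funext i
        by_cases hia : i = a
        · subst hia
          simp [hya]
        · simp [Finset.mem_insert, hia]
      · have ht0 : 0 ≤ y a / x a := div_nonneg (h0 a) hxa.le
        have ht1 : 0 ≤ 1 - y a / x a := by
          rw [sub_nonneg, div_le_one hxa]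
          exact hy a
        have h1 := hconv ih hPz ht0 ht1 (by ring)
        convert h1 using 1
        funext i
        by_cases hia : i = a
        · subst hia
          simp [ha]
          field_simp
        · by_cases hiJ : i ∈ J
          · simp [Finset.mem_insert, hia, hiJ]
            ring
          · simp [Finset.mem_insert, hia, hiJ]
            ring
  have h1 := key Finset.univ
  simpa using h1

theorem isClosed_polar {n : ℕ} (K : Set (Fin n → ℝ)) : IsClosed (polar K) := by
  have : polar K = ⋂ x ∈ K, {y : Fin n → ℝ | ∑ i, x i * y i ≤ 1} := by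
    ext y; simp [polar]
  rw [this]
  refine isClosed_biInter fun x _ => isClosed_le ?_ continuous_const
  fun_prop

theorem measurableSet_polar {n : ℕ} (K : Set (Fin n → ℝ)) : MeasurableSet (polar K) :=
  (isClosed_polar K).measurableSet

theorem isBounded_polar {n : ℕ} (K : Set (Fin n → ℝ)) (h0 : (0 : Fin n → ℝ) ∈ interior K) :
    Bornology.IsBounded (polar K) := by
  rw [mem_interior_iff_mem_nhds, Metric.mem_nhds_iff] at h0
  obtain ⟨δ, hδ, hball⟩ := h0
  rw [Metric.isBounded_iff_subset_closedBall (0 : Fin n → ℝ)]
  refine ⟨2 / δ, fun y hy => ?_⟩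
  rw [mem_closedBall_zero_iff, pi_norm_le_iff_of_nonneg (by positivity)]
  intro i
  rw [Real.norm_eq_abs]
  have key : ∀ t : ℝ, |t| = δ / 2 → t * y i ≤ 1 := by
    intro t ht
    have hx : Function.update (0 : Fin n → ℝ) i t ∈ K := by
      apply hball
      rw [Metric.mem_ball, dist_zero_right]
      have h1 : ‖Function.update (0 : Fin n → ℝ) i t‖ ≤ δ / 2 := by
        rw [pi_norm_le_iff_of_nonneg (by positivity)]
        intro j
        by_cases hji : j = i
        · subst hji
          simp [ht.le]
        · rw [Function.update_of_ne hji]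
          simp
          positivity
      linarith
    have h2 := hy _ hx
    rw [Finset.sum_eq_single i] at h2
    · simpa using h2
    · intro j _ hji
      rw [Function.update_of_ne hji]
      simp
    · intro h
      exact absurd (Finset.mem_univ i) h
  have h1 := key (δ / 2) (abs_of_pos (by positivity))
  have h2 := key (-(δ / 2)) (by rw [abs_neg]; exact abs_of_pos (by positivity))
  rw [abs_le]
  constructor
  · rw [neg_le, le_div_iff₀ hδ]
    linarith
  · rw [le_div_iff₀ hδ]
    linarith

theorem volume_polar_lt_top {n : ℕ} (K : Set (Fin n → ℝ)) (h0 : (0 : Fin n → ℝ) ∈ interior K) :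
    volume (polar K) < ⊤ :=
  (isBounded_polar K h0).measure_lt_top

end Vale.Agent.H64.LAB
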